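import Crest.Agent.R163.Q3.D.R2.S0
import Crest.Agent.R163.Q3.D.R2.H

set_option autoImplicit false
set_option maxRecDepth 100000
set_option linter.all false
set_option Elab.async false

namespace Crest.Agent.R163.R2

theorem p0_2_54 : Ok2 par f2 ((((((((((((((Box3.unit.r 1).r 0).r 0).r 1).r 0).l 1).r 0).r 1).r 2).r 0).l 1).r 2).r 0).l 1) (selB2 0 (selB2 0 (selB2 0 (selB2 0 (selB2 0 (selB2 0 (selB2 0 C0 5579950424116541105599678231518066608029695) 160991935718422173912840324251649) 69324648398087304160760299525) 83406418373699600054747139) 475003659898020954115) 3458764513820540928) 1073741823) :=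
  Ok2.run hw hf2 ⟨513,19,19,13,13⟩ 58
    (.chk false 2048)
    (by decide +kernel)

theorem p0_2_55 : Ok2 par f2 ((((((((((((((Box3.unit.r 1).r 0).r 0).r 1).r 0).l 1).r 0).r 1).r 2).r 0).l 1).r 2).r 0).r 1) (selB2 1 (selB2 0 (selB2 0 (selB2 0 (selB2 0 (selB2 0 (selB2 0 C0 5579950424116541105599678231518066608029695) 160991935718422173912840324251649) 69324648398087304160760299525) 83406418373699600054747139) 475003659898020954115) 3458764513820540928) 1073741823) :=
  Ok2.run hw hf2 ⟨513,19,19,13,13⟩ 58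
    (.chk false 2048)
    (by decide +kernel)

theorem p0_2_56 : Ok2 par f2 ((((((((((((((Box3.unit.r 1).r 0).r 0).r 1).r 0).l 1).r 0).r 1).r 2).r 0).l 1).r 2).r 0).r 1) (selB2 0 (selB2 0 (selB2 0 (selB2 0 (selB2 0 (selB2 0 (selB2 0 C0 5579950424116541105599678231518066608029695) 160991935718422173912840324251649) 69324648398087304160760299525) 83406418373699600054747139) 475003659898020954115) 3458764513820540928) 1073741823) :=
  Ok2.run hw hf2 ⟨513,19,19,13,13⟩ 58
    (.chk false 2048)
    (by decide +kernel)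

theorem p0_2_57 : Ok2 par f2 (((((((((((Box3.unit.r 1).r 0).r 0).r 1).r 0).l 1).r 0).r 1).r 2).r 0).l 1) (selB2 1 (selB2 0 (selB2 0 (selB2 0 (selB2 0 (selB2 0 C0 5579950424116541105599678231518066608029695) 160991935718422173912840324251649) 69324648398087304160760299525) 83406418373699600054747139) 475003659898020954115) 3458764513820540928) :=
  Ok2.run hw hf2 ⟨463,19,19,13,13⟩ 58
    (.chk false 0)
    (by decide +kernel)

theorem p0_2_58 : Ok2 par f2 (((((((((((Box3.unit.r 1).r 0).r 0).r 1).r 0).l 1).r 0).r 1).r 2).r 0).r 1) (selB2 1 (selB2 0 (selB2 0 (selB2 0 (selB2 0 (selB2 0 C0 5579950424116541105599678231518066608029695) 160991935718422173912840324251649) 69324648398087304160760299525) 83406418373699600054747139) 475003659898020954115) 2147483647) :=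
  Ok2.run hw hf2 ⟨464,19,19,13,13⟩ 58
    (.chk false 2048)
    (by decide +kernel)

theorem p0_2_59 : Ok2 par f2 (((((((((((Box3.unit.r 1).r 0).r 0).r 1).r 0).l 1).r 0).r 1).r 2).r 0).r 1) (selB2 0 (selB2 0 (selB2 0 (selB2 0 (selB2 0 (selB2 0 C0 5579950424116541105599678231518066608029695) 160991935718422173912840324251649) 69324648398087304160760299525) 83406418373699600054747139) 475003659898020954115) 2147483647) :=
  Ok2.run hw hf2 ⟨464,19,19,13,13⟩ 58
    (.chk false 2048)
    (by decide +kernel)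

theorem p0_2_60 : Ok2 par f2 ((((((((Box3.unit.r 1).r 0).r 0).r 1).r 0).l 1).r 0).r 1) (selB2 1 (selB2 0 (selB2 0 (selB2 0 (selB2 0 C0 5579950424116541105599678231518066608029695) 160991935718422173912840324251649) 69324648398087304160760299525) 83406418373699600054747139) 475003659898020954115) :=
  Ok2.run hw hf2 ⟨410,19,19,13,13⟩ 58
    (.chk false 2048)
    (by decide +kernel)

theorem p0_2_61 : Ok2 par f2 ((((((Box3.unit.r 1).r 0).r 0).r 1).r 0).l 1) (selB2 1 (selB2 0 (selB2 0 (selB2 0 C0 5579950424116541105599678231518066608029695) 160991935718422173912840324251649) 69324648398087304160760299525) 83406418373699600054747139) :=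
  Ok2.run hw hf2 ⟨372,19,19,13,13⟩ 58
    (.chk false 1448)
    (by decide +kernel)

theorem p0_2_62 : Ok2 par f2 ((((((Box3.unit.r 1).r 0).r 0).r 1).r 0).r 1) (selB2 1 (selB2 1 (selB2 0 (selB2 0 (selB2 0 C0 5579950424116541105599678231518066608029695) 160991935718422173912840324251649) 69324648398087304160760299525) 77088500762174447174025214) 274877906943) :=
  Ok2.run hw hf2 ⟨375,19,19,13,13⟩ 58
    (.chk false 2048)
    (by decide +kernel)

theorem p0_2_63 : Ok2 par f2 ((((((Box3.unit.r 1).r 0).r 0).r 1).r 0).r 1) (selB2 0 (selB2 1 (selB2 0 (selB2 0 (selB2 0 C0 5579950424116541105599678231518066608029695) 160991935718422173912840324251649) 69324648398087304160760299525) 77088500762174447174025214) 274877906943) :=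
  Ok2.run hw hf2 ⟨375,19,19,13,13⟩ 58
    (.chk false 2048)
    (by decide +kernel)

theorem p0_2_64 : Ok2 par f2 ((((((((Box3.unit.r 1).r 0).r 0).r 1).r 0).r 1).r 0).l 1) (selB2 1 (selB2 0 (selB2 0 (selB2 0 (selB2 0 C0 5579950424116541105599678231518066608029695) 160991935718422173912840324251649) 69324648398087304160760299525) 77088500762174447174025214) 1534) :=
  Ok2.run hw hf2 ⟨411,19,19,13,13⟩ 58
    (.chk false 0)
    (by decide +kernel)

theorem p0_2_65 : Ok2 par f2 ((((((((Box3.unit.r 1).r 0).r 0).r 1).r 0).r 1).r 0).l 1) (selB2 0 (selB2 0 (selB2 0 (selB2 0 (selB2 0 C0 5579950424116541105599678231518066608029695) 160991935718422173912840324251649) 69324648398087304160760299525) 77088500762174447174025214) 1534) :=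
  Ok2.run hw hf2 ⟨461,19,19,13,13⟩ 58
    (.split 2 (.part 1 (.chk false 512) (.split 2 (.split 1 (.chk false 0) (.chk false 0)) (.chk false 0))) (.part 2 (.chk false 0) (.split 1 (.chk false 512) (.chk false 512))))
    (by decide +kernel)

theorem p0_2_66 : Ok2 par f2 ((((((((Box3.unit.r 1).r 0).r 0).r 1).r 0).r 1).r 0).r 1) (selB2 1 (selB2 0 (selB2 0 (selB2 0 (selB2 0 C0 5579950424116541105599678231518066608029695) 160991935718422173912840324251649) 69324648398087304160760299525) 77088500762174447174025214) 1791) :=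
  Ok2.run hw hf2 ⟨413,19,19,13,13⟩ 58
    (.chk false 512)
    (by decide +kernel)

theorem p0_2_67 : Ok2 par f2 ((((((((Box3.unit.r 1).r 0).r 0).r 1).r 0).r 1).r 0).r 1) (selB2 0 (selB2 0 (selB2 0 (selB2 0 (selB2 0 C0 5579950424116541105599678231518066608029695) 160991935718422173912840324251649) 69324648398087304160760299525) 77088500762174447174025214) 1791) :=
  Ok2.run hw hf2 ⟨499,19,19,13,13⟩ 58
    (.split 2 (.split 1 (.split 0 (.chk false 0) (.split 2 (.split 1 (.chk false 0) (.chk false 0)) (.chk false 0))) (.chk false 0)) (.chk false 0))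
    (by decide +kernel)

theorem p0_2_68 : Ok2 par f2 (((((((Box3.unit.r 1).r 0).r 0).r 1).r 0).r 1).l 0) (selB2 0 (selB2 0 (selB2 0 (selB2 0 C0 5579950424116541105599678231518066608029695) 160991935718422173912840324251649) 69324648398087304160760299525) 77088500762174447174025214) :=
  Ok2.run hw hf2 ⟨393,19,19,13,13⟩ 58
    (.chk false 512)
    (by decide +kernel)

theorem p0_2_69 : Ok2 par f2 ((((Box3.unit.r 1).r 0).r 0).r 1) (selB2 1 (selB2 0 (selB2 0 C0 5579950424116541105599678231518066608029695) 160991935718422173912840324251649) 69324648398087304160760299525) :=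
  Ok2.run hw hf2 ⟨336,19,19,13,13⟩ 58
    (.chk false 1024)
    (by decide +kernel)

theorem p0_2_70 : Ok2 par f2 (Box3.unit.r 1) (selB2 1 (selB2 0 C0 5579950424116541105599678231518066608029695) 160991935718422173912840324251649) :=
  Ok2.run hw hf2 ⟨263,19,19,13,13⟩ 58
    (.chk false 2048)
    (by decide +kernel)

theorem p0_2_71 : Ok2 par f2 Box3.unit (selB2 1 C0 5579950424116541105599678231518066608029695) :=
  Ok2.run hw hf2 ⟨235,19,19,13,13⟩ 58
    (.chk false 2048)
    (by decide +kernel)

theorem p0_3_0 : Ok2 par f3 Box3.unit (selB2 1 (selB2 1 C0 6979871910282215486158382824823935589154815) 36893488147419103231) :=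
  Ok2.run hw hf3 ⟨237,19,19,16,13⟩ 58
    (.chk false 2048)
    (by decide +kernel)

theorem p0_3_1 : Ok2 par f3 Box3.unit (selB2 0 (selB2 1 C0 6979871910282215486158382824823935589154815) 36893488147419103231) :=
  Ok2.run hw hf3 ⟨237,19,19,16,13⟩ 58
    (.chk false 2048)
    (by decide +kernel)

theorem p0_3_2 : Ok2 par f3 ((((((((Box3.unit.r 1).r 0).r 1).r 0).r 2).r 1).r 0).l 2) (selB2 0 (selB2 0 (selB2 0 (selB2 0 C0 6979871910282215486158382824823935589154815) 30) 1) 15) :=
  Ok2.run hw hf3 ⟨411,19,19,16,13⟩ 58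
    (.chk false 0)
    (by decide +kernel)

theorem p0_3_3 : Ok2 par f3 ((((((((Box3.unit.r 1).r 0).r 1).r 0).r 2).r 1).r 0).r 2) (selB2 0 (selB2 0 (selB2 0 (selB2 0 C0 6979871910282215486158382824823935589154815) 30) 1) 15) :=
  Ok2.run hw hf3 ⟨487,19,19,16,13⟩ 58
    (.split 0 (.part 11 (.chk false 0) (.split 1 (.chk false 0) (.split 2 (.chk false 0) (.split 0 (.chk false 0) (.chk false 0))))) (.chk false 0))
    (by decide +kernel)

theorem p0_3_4 : Ok2 par f3 (((((((Box3.unit.r 1).r 0).r 1).r 0).r 2).r 1).r 0) (selB2 1 (selB2 0 (selB2 0 (selB2 0 C0 6979871910282215486158382824823935589154815) 30) 1) 15) :=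
  Ok2.run hw hf3 ⟨399,19,19,16,13⟩ 58
    (.chk false 0)
    (by decide +kernel)

theorem p0_3_5 : Ok2 par f3 (((((((Box3.unit.r 1).r 0).r 1).r 0).r 2).r 1).l 0) (selB2 0 (selB2 0 (selB2 0 C0 6979871910282215486158382824823935589154815) 30) 1) :=
  Ok2.run hw hf3 ⟨451,19,19,16,13⟩ 58
    (.part 251 (.chk false 0) (.split 2 (.chk false 0) (.split 1 (.chk false 0) (.split 0 (.chk false 0) (.chk false 0)))))
    (by decide +kernel)

theorem p0_3_6 : Ok2 par f3 ((((((Box3.unit.r 1).r 0).r 1).r 0).r 2).l 1) (selB2 0 (selB2 0 (selB2 0 C0 6979871910282215486158382824823935589154815) 30) 1) :=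
  Ok2.run hw hf3 ⟨376,19,19,16,13⟩ 58
    (.chk false 0)
    (by decide +kernel)

theorem p0_3_7 : Ok2 par f3 (((((Box3.unit.r 1).r 0).r 1).r 0).r 2) (selB2 1 (selB2 0 (selB2 0 C0 6979871910282215486158382824823935589154815) 30) 1) :=
  Ok2.run hw hf3 ⟨360,19,19,16,13⟩ 58
    (.chk false 0)
    (by decide +kernel)

theorem p0_3_8 : Ok2 par f3 (((((Box3.unit.r 1).r 0).r 1).r 0).l 2) (selB2 0 (selB2 0 C0 6979871910282215486158382824823935589154815) 30) :=
  Ok2.run hw hf3 ⟨379,19,19,16,13⟩ 58
    (.part 254 (.chk false 0) (.split 0 (.chk false 0) (.chk false 0)))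
    (by decide +kernel)

theorem p0_3_9 : Ok2 par f3 ((((Box3.unit.r 1).r 0).r 1).r 0) (selB2 1 (selB2 0 C0 6979871910282215486158382824823935589154815) 30) :=
  Ok2.run hw hf3 ⟨337,19,19,16,13⟩ 58
    (.chk false 0)
    (by decide +kernel)

theorem p0_3_10 : Ok2 par f3 ((((Box3.unit.r 1).r 0).r 1).l 0) (selB2 0 C0 6979871910282215486158382824823935589154815) :=
  Ok2.run hw hf3 ⟨369,19,19,16,13⟩ 58
    (.part 8169 (.chk false 0) (.split 1 (.chk false 0) (.split 0 (.chk false 0) (.chk false 0))))
    (by decide +kernel)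

theorem p0_3_11 : Ok2 par f3 (((Box3.unit.r 1).r 0).l 1) (selB2 0 C0 6979871910282215486158382824823935589154815) :=
  Ok2.run hw hf3 ⟨307,19,19,16,13⟩ 58
    (.chk false 0)
    (by decide +kernel)

theorem p0_3_12 : Ok2 par f3 ((Box3.unit.r 1).l 0) (selB2 0 C0 6979871910282215486158382824823935589154815) :=
  Ok2.run hw hf3 ⟨315,19,19,16,13⟩ 58
    (.part 8189 (.chk false 0) (.split 0 (.chk false 0) (.chk false 0)))
    (by decide +kernel)

theorem p0_3_13 : Ok2 par f3 (Box3.unit.l 1) (selB2 0 C0 6979871910282215486158382824823935589154815) :=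
  Ok2.run hw hf3 ⟨265,19,19,16,13⟩ 58
    (.chk false 0)
    (by decide +kernel)

theorem p0_4_0 : Ok2 par f4 Box3.unit (selB2 1 (selB2 1 C0 11150372443455840995515726939561396016250879) 73786976294838206463) :=
  Ok2.run hw hf4 ⟨235,19,19,13,13⟩ 58
    (.chk false 2048)
    (by decide +kernel)


end Crest.Agent.R163.R2
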