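import Crest.Agent.R163.Q3.D.R2.S0
import Crest.Agent.R163.Q3.D.R2.H

set_option autoImplicit false
set_option maxRecDepth 100000
set_option linter.all false
set_option Elab.async false

namespace Crest.Agent.R163.R2

theorem p0_4_1 : Ok2 par f4 Box3.unit (selB2 0 (selB2 1 C0 11150372443455840995515726939561396016250879) 73786976294838206463) :=
  Ok2.run hw hf4 ⟨235,19,19,13,13⟩ 58
    (.chk false 2048)
    (by decide +kernel)

theorem p0_4_2 : Ok2 par f4 (((Box3.unit.r 0).r 0).l 1) (selB2 1 (selB2 0 C0 11150372443455840995515726939561396016250879) 27) :=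
  Ok2.run hw hf4 ⟨314,19,19,13,13⟩ 58
    (.chk false 2048)
    (by decide +kernel)

theorem p0_4_3 : Ok2 par f4 (((Box3.unit.r 0).r 0).l 1) (selB2 0 (selB2 0 C0 11150372443455840995515726939561396016250879) 27) :=
  Ok2.run hw hf4 ⟨394,19,19,13,13⟩ 58
    (.split 0 (.chk false 0) (.split 1 (.part 23 (.chk false 0) (.split 0 (.chk false 0) (.split 1 (.chk false 0) (.chk false 0)))) (.chk false 0)))
    (by decide +kernel)

theorem p0_4_4 : Ok2 par f4 (((Box3.unit.r 0).r 0).r 1) (selB2 0 C0 11150372443455840995515726939561396016250879) :=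
  Ok2.run hw hf4 ⟨336,19,19,13,13⟩ 58
    (.part 950 (.chk false 2048) (.split 1 (.chk false 0) (.chk false 0)))
    (by decide +kernel)

theorem p0_4_5 : Ok2 par f4 ((Box3.unit.r 0).l 0) (selB2 0 C0 11150372443455840995515726939561396016250879) :=
  Ok2.run hw hf4 ⟨277,19,19,13,13⟩ 58
    (.chk false 2048)
    (by decide +kernel)

theorem p0_4_6 : Ok2 par f4 (Box3.unit.l 0) (selB2 0 C0 11150372443455840995515726939561396016250879) :=
  Ok2.run hw hf4 ⟨263,19,19,13,13⟩ 58
    (.chk false 2048)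
    (by decide +kernel)

theorem p0_5_0 : Ok2 par f5 Box3.unit (selB2 1 (selB2 1 (selB2 0 C0 9750451445405838903052822984073041764417535) 73786976294838206461) 4294967295) :=
  Ok2.run hw hf5 ⟨277,25,25,13,13⟩ 58
    (.chk true 0)
    (by decide +kernel)

theorem p0_5_1 : Ok2 par f5 Box3.unit (selB2 0 (selB2 1 (selB2 0 C0 9750451445405838903052822984073041764417535) 73786976294838206461) 4294967295) :=
  Ok2.run hw hf5 ⟨277,25,25,13,13⟩ 58
    (.chk true 0)
    (by decide +kernel)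

theorem p0_5_2 : Ok2 par f5 (((((Box3.unit.l 0).r 1).l 0).r 1).l 2) (selB2 0 (selB2 0 (selB2 0 (selB2 0 (selB2 0 (selB2 0 C0 9750451445405838903052822984073041764417535) 73786976294838206461) 196151) 65536) 50431) 12) :=
  Ok2.run hw hf5 ⟨406,19,19,13,13⟩ 58
    (.part 7 (.chk false 0) (.split 2 (.split 1 (.chk false 0) (.split 0 (.chk false 0) (.chk false 0))) (.chk false 0)))
    (by decide +kernel)

theorem p0_5_3 : Ok2 par f5 (((((Box3.unit.l 0).r 1).l 0).r 1).r 2) (selB2 0 (selB2 0 (selB2 0 (selB2 0 (selB2 0 (selB2 0 C0 9750451445405838903052822984073041764417535) 73786976294838206461) 196151) 65536) 50431) 12) :=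
  Ok2.run hw hf5 ⟨438,19,19,13,13⟩ 58
    (.split 0 (.part 7 (.chk false 0) (.split 2 (.chk false 0) (.split 1 (.chk false 0) (.split 2 (.chk false 0) (.split 0 (.chk false 0) (.chk false 0)))))) (.chk false 0))
    (by decide +kernel)

theorem p0_5_4 : Ok2 par f5 ((((Box3.unit.l 0).r 1).l 0).r 1) (selB2 1 (selB2 0 (selB2 0 (selB2 0 (selB2 0 (selB2 0 C0 9750451445405838903052822984073041764417535) 73786976294838206461) 196151) 65536) 50431) 12) :=
  Ok2.run hw hf5 ⟨335,19,19,13,13⟩ 58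
    (.chk false 0)
    (by decide +kernel)

theorem p0_5_5 : Ok2 par f5 ((((Box3.unit.l 0).r 1).l 0).l 1) (selB2 0 (selB2 0 (selB2 0 (selB2 0 (selB2 0 C0 9750451445405838903052822984073041764417535) 73786976294838206461) 196151) 65536) 50431) :=
  Ok2.run hw hf5 ⟨327,19,19,13,13⟩ 58
    (.chk false 0)
    (by decide +kernel)

theorem p0_5_6 : Ok2 par f5 (((Box3.unit.l 0).r 1).l 0) (selB2 1 (selB2 0 (selB2 0 (selB2 0 (selB2 0 C0 9750451445405838903052822984073041764417535) 73786976294838206461) 196151) 65536) 50431) :=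
  Ok2.run hw hf5 ⟨313,19,19,13,13⟩ 58
    (.chk false 0)
    (by decide +kernel)

theorem p0_5_7 : Ok2 par f5 (((((((Box3.unit.l 0).r 1).r 0).r 1).r 2).r 0).l 1) (selB2 0 (selB2 0 (selB2 0 (selB2 0 (selB2 0 (selB2 0 (selB2 0 C0 9750451445405838903052822984073041764417535) 73786976294838206461) 196151) 65536) 66305) 896) 691) :=
  Ok2.run hw hf5 ⟨375,19,19,13,13⟩ 58
    (.chk false 0)
    (by decide +kernel)

theorem p0_5_8 : Ok2 par f5 (((((((Box3.unit.l 0).r 1).r 0).r 1).r 2).r 0).r 1) (selB2 0 (selB2 0 (selB2 0 (selB2 0 (selB2 0 (selB2 0 (selB2 0 C0 9750451445405838903052822984073041764417535) 73786976294838206461) 196151) 65536) 66305) 896) 691) :=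
  Ok2.run hw hf5 ⟨431,19,19,13,13⟩ 58
    (.split 2 (.chk false 0) (.split 0 (.part 7 (.chk false 0) (.split 1 (.chk false 0) (.chk false 0))) (.part 13 (.chk false 0) (.split 1 (.chk false 0) (.chk false 0)))))
    (by decide +kernel)

theorem p0_5_9 : Ok2 par f5 ((((((Box3.unit.l 0).r 1).r 0).r 1).r 2).r 0) (selB2 1 (selB2 0 (selB2 0 (selB2 0 (selB2 0 (selB2 0 (selB2 0 C0 9750451445405838903052822984073041764417535) 73786976294838206461) 196151) 65536) 66305) 896) 691) :=
  Ok2.run hw hf5 ⟨359,19,19,13,13⟩ 58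
    (.chk false 0)
    (by decide +kernel)

theorem p0_5_10 : Ok2 par f5 ((((((Box3.unit.l 0).r 1).r 0).r 1).r 2).l 0) (selB2 0 (selB2 0 (selB2 0 (selB2 0 (selB2 0 (selB2 0 C0 9750451445405838903052822984073041764417535) 73786976294838206461) 196151) 65536) 66305) 896) :=
  Ok2.run hw hf5 ⟨384,19,19,13,13⟩ 58
    (.part 511 (.chk false 0) (.split 1 (.chk false 0) (.chk false 0)))
    (by decide +kernel)

theorem p0_5_11 : Ok2 par f5 (((((Box3.unit.l 0).r 1).r 0).r 1).l 2) (selB2 0 (selB2 0 (selB2 0 (selB2 0 (selB2 0 (selB2 0 C0 9750451445405838903052822984073041764417535) 73786976294838206461) 196151) 65536) 66305) 896) :=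
  Ok2.run hw hf5 ⟨364,19,19,13,13⟩ 58
    (.part 255 (.chk false 0) (.split 0 (.chk false 0) (.chk false 0)))
    (by decide +kernel)

theorem p0_5_12 : Ok2 par f5 ((((Box3.unit.l 0).r 1).r 0).r 1) (selB2 1 (selB2 0 (selB2 0 (selB2 0 (selB2 0 (selB2 0 C0 9750451445405838903052822984073041764417535) 73786976294838206461) 196151) 65536) 66305) 896) :=
  Ok2.run hw hf5 ⟨327,19,19,13,13⟩ 58
    (.chk false 0)
    (by decide +kernel)

theorem p0_5_13 : Ok2 par f5 ((((Box3.unit.l 0).r 1).r 0).l 1) (selB2 0 (selB2 0 (selB2 0 (selB2 0 (selB2 0 C0 9750451445405838903052822984073041764417535) 73786976294838206461) 196151) 65536) 66305) :=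
  Ok2.run hw hf5 ⟨318,19,19,13,13⟩ 58
    (.chk false 0)
    (by decide +kernel)

theorem p0_5_14 : Ok2 par f5 (((Box3.unit.l 0).r 1).r 0) (selB2 1 (selB2 0 (selB2 0 (selB2 0 (selB2 0 C0 9750451445405838903052822984073041764417535) 73786976294838206461) 196151) 65536) 66305) :=
  Ok2.run hw hf5 ⟨305,19,19,13,13⟩ 58
    (.chk false 0)
    (by decide +kernel)

theorem p0_5_15 : Ok2 par f5 ((Box3.unit.l 0).r 1) (selB2 1 (selB2 0 (selB2 0 (selB2 0 C0 9750451445405838903052822984073041764417535) 73786976294838206461) 196151) 65536) :=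
  Ok2.run hw hf5 ⟨291,19,19,13,13⟩ 58
    (.chk false 0)
    (by decide +kernel)

theorem p0_5_16 : Ok2 par f5 ((Box3.unit.l 0).l 1) (selB2 0 (selB2 0 (selB2 0 C0 9750451445405838903052822984073041764417535) 73786976294838206461) 196151) :=
  Ok2.run hw hf5 ⟨291,19,19,13,13⟩ 58
    (.chk false 0)
    (by decide +kernel)

theorem p0_5_17 : Ok2 par f5 (Box3.unit.l 0) (selB2 1 (selB2 0 (selB2 0 C0 9750451445405838903052822984073041764417535) 73786976294838206461) 196151) :=
  Ok2.run hw hf5 ⟨263,19,19,13,13⟩ 58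
    (.chk false 0)
    (by decide +kernel)

theorem p0_5_18 : Ok2 par f5 ((((((Box3.unit.r 0).r 1).l 0).r 1).l 2).l 0) (selB2 1 (selB2 0 (selB2 0 (selB2 0 (selB2 0 (selB2 0 (selB2 0 (selB2 0 C0 9750451445405838903052822984073041764417535) 73786976294838206461) 2011168777) 526340) 7) 12291) 145) 93) :=
  Ok2.run hw hf5 ⟨359,19,19,13,13⟩ 58
    (.chk false 0)
    (by decide +kernel)

theorem p0_5_19 : Ok2 par f5 ((((((Box3.unit.r 0).r 1).l 0).r 1).l 2).l 0) (selB2 0 (selB2 0 (selB2 0 (selB2 0 (selB2 0 (selB2 0 (selB2 0 (selB2 0 C0 9750451445405838903052822984073041764417535) 73786976294838206461) 2011168777) 526340) 7) 12291) 145) 93) :=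
  Ok2.run hw hf5 ⟨463,19,19,13,13⟩ 58
    (.split 1 (.chk false 0) (.split 2 (.split 0 (.chk false 0) (.part 1 (.chk false 0) (.split 1 (.chk false 0) (.split 2 (.split 0 (.chk false 0) (.chk false 0)) (.chk false 0))))) (.chk false 0)))
    (by decide +kernel)

theorem p0_5_20 : Ok2 par f5 ((((((Box3.unit.r 0).r 1).l 0).r 1).l 2).r 0) (selB2 0 (selB2 0 (selB2 0 (selB2 0 (selB2 0 (selB2 0 (selB2 0 C0 9750451445405838903052822984073041764417535) 73786976294838206461) 2011168777) 526340) 7) 12291) 145) :=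
  Ok2.run hw hf5 ⟨403,19,19,13,13⟩ 58
    (.part 85 (.chk false 0) (.split 1 (.chk false 0) (.part 5 (.chk false 0) (.split 0 (.chk false 0) (.chk false 0)))))
    (by decide +kernel)

theorem p0_5_21 : Ok2 par f5 (((((Box3.unit.r 0).r 1).l 0).r 1).l 2) (selB2 1 (selB2 0 (selB2 0 (selB2 0 (selB2 0 (selB2 0 (selB2 0 C0 9750451445405838903052822984073041764417535) 73786976294838206461) 2011168777) 526340) 7) 12291) 145) :=
  Ok2.run hw hf5 ⟨344,19,19,13,13⟩ 58
    (.chk false 0)
    (by decide +kernel)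

theorem p0_5_22 : Ok2 par f5 ((((((Box3.unit.r 0).r 1).l 0).r 1).r 2).l 0) (selB2 1 (selB2 0 (selB2 0 (selB2 0 (selB2 0 (selB2 0 (selB2 0 C0 9750451445405838903052822984073041764417535) 73786976294838206461) 2011168777) 526340) 7) 12291) 62) :=
  Ok2.run hw hf5 ⟨359,19,19,13,13⟩ 58
    (.chk false 0)
    (by decide +kernel)

theorem p0_5_23 : Ok2 par f5 ((((((Box3.unit.r 0).r 1).l 0).r 1).r 2).l 0) (selB2 0 (selB2 0 (selB2 0 (selB2 0 (selB2 0 (selB2 0 (selB2 0 C0 9750451445405838903052822984073041764417535) 73786976294838206461) 2011168777) 526340) 7) 12291) 62) :=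
  Ok2.run hw hf5 ⟨431,19,19,13,13⟩ 58
    (.split 1 (.chk false 0) (.part 5 (.chk false 0) (.split 2 (.chk false 0) (.split 0 (.chk false 0) (.part 5 (.chk false 0) (.split 1 (.chk false 0) (.chk false 0)))))))
    (by decide +kernel)

theorem p0_5_24 : Ok2 par f5 (((((((Box3.unit.r 0).r 1).l 0).r 1).r 2).r 0).l 1) (selB2 0 (selB2 0 (selB2 0 (selB2 0 (selB2 0 (selB2 0 (selB2 0 C0 9750451445405838903052822984073041764417535) 73786976294838206461) 2011168777) 526340) 7) 12291) 641) :=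
  Ok2.run hw hf5 ⟨381,19,19,13,13⟩ 58
    (.chk false 0)
    (by decide +kernel)

theorem p0_5_25 : Ok2 par f5 (((((((Box3.unit.r 0).r 1).l 0).r 1).r 2).r 0).r 1) (selB2 0 (selB2 0 (selB2 0 (selB2 0 (selB2 0 (selB2 0 (selB2 0 C0 9750451445405838903052822984073041764417535) 73786976294838206461) 2011168777) 526340) 7) 12291) 641) :=
  Ok2.run hw hf5 ⟨434,19,19,13,13⟩ 58
    (.part 96 (.chk false 0) (.split 2 (.chk false 0) (.split 0 (.part 17 (.chk false 0) (.split 1 (.chk false 0) (.chk false 0))) (.chk false 0))))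
    (by decide +kernel)

theorem p0_5_26 : Ok2 par f5 ((((((Box3.unit.r 0).r 1).l 0).r 1).r 2).r 0) (selB2 1 (selB2 0 (selB2 0 (selB2 0 (selB2 0 (selB2 0 (selB2 0 C0 9750451445405838903052822984073041764417535) 73786976294838206461) 2011168777) 526340) 7) 12291) 641) :=
  Ok2.run hw hf5 ⟨365,19,19,13,13⟩ 58
    (.chk false 0)
    (by decide +kernel)

theorem p0_5_27 : Ok2 par f5 ((((Box3.unit.r 0).r 1).l 0).r 1) (selB2 1 (selB2 0 (selB2 0 (selB2 0 (selB2 0 (selB2 0 C0 9750451445405838903052822984073041764417535) 73786976294838206461) 2011168777) 526340) 7) 12291) :=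
  Ok2.run hw hf5 ⟨327,19,19,13,13⟩ 58
    (.chk false 0)
    (by decide +kernel)

theorem p0_5_28 : Ok2 par f5 ((((Box3.unit.r 0).r 1).l 0).l 1) (selB2 0 (selB2 0 (selB2 0 (selB2 0 (selB2 0 C0 9750451445405838903052822984073041764417535) 73786976294838206461) 2011168777) 526340) 7) :=
  Ok2.run hw hf5 ⟨318,19,19,13,13⟩ 58
    (.chk false 0)
    (by decide +kernel)

theorem p0_5_29 : Ok2 par f5 (((Box3.unit.r 0).r 1).l 0) (selB2 1 (selB2 0 (selB2 0 (selB2 0 (selB2 0 C0 9750451445405838903052822984073041764417535) 73786976294838206461) 2011168777) 526340) 7) :=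
  Ok2.run hw hf5 ⟨305,19,19,13,13⟩ 58
    (.chk false 0)
    (by decide +kernel)

theorem p0_5_30 : Ok2 par f5 (((Box3.unit.r 0).r 1).r 0) (selB2 1 (selB2 0 (selB2 0 (selB2 0 (selB2 0 C0 9750451445405838903052822984073041764417535) 73786976294838206461) 2011168777) 526340) 129087) :=
  Ok2.run hw hf5 ⟨313,19,19,13,13⟩ 58
    (.chk false 0)
    (by decide +kernel)


end Crest.Agent.R163.R2
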