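import Crest.Agent.R163.Q3.D.R2.S0
import Crest.Agent.R163.Q3.D.R2.H

set_option autoImplicit false
set_option maxRecDepth 100000
set_option linter.all false
set_option Elab.async false

namespace Crest.Agent.R163.R2

theorem p0_5_31 : Ok2 par f5 (((Box3.unit.r 0).r 1).r 0) (selB2 0 (selB2 0 (selB2 0 (selB2 0 (selB2 0 C0 9750451445405838903052822984073041764417535) 73786976294838206461) 2011168777) 526340) 129087) :=
  Ok2.run hw hf5 ⟨389,19,19,13,13⟩ 58
    (.split 1 (.chk false 0) (.part 15 (.chk false 0) (.split 0 (.split 2 (.chk false 0) (.split 1 (.chk false 0) (.chk false 0))) (.chk false 0))))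
    (by decide +kernel)

theorem p0_5_32 : Ok2 par f5 ((Box3.unit.r 0).r 1) (selB2 1 (selB2 0 (selB2 0 (selB2 0 C0 9750451445405838903052822984073041764417535) 73786976294838206461) 2011168777) 526340) :=
  Ok2.run hw hf5 ⟨291,19,19,13,13⟩ 58
    (.chk false 0)
    (by decide +kernel)

theorem p0_5_33 : Ok2 par f5 ((Box3.unit.r 0).l 1) (selB2 0 (selB2 0 (selB2 0 C0 9750451445405838903052822984073041764417535) 73786976294838206461) 2011168777) :=
  Ok2.run hw hf5 ⟨291,19,19,13,13⟩ 58
    (.chk false 0)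
    (by decide +kernel)

theorem p0_5_34 : Ok2 par f5 (Box3.unit.r 0) (selB2 1 (selB2 0 (selB2 0 C0 9750451445405838903052822984073041764417535) 73786976294838206461) 2011168777) :=
  Ok2.run hw hf5 ⟨263,19,19,13,13⟩ 58
    (.chk false 0)
    (by decide +kernel)

theorem p0_5_35 : Ok2 par f5 Box3.unit (selB2 1 C0 9750451445405838903052822984073041764417535) :=
  Ok2.run hw hf5 ⟨235,19,19,13,13⟩ 58
    (.chk false 1024)
    (by decide +kernel)

theorem p0_6_0 : Ok2 par f6 Box3.unit (selB2 1 (selB2 1 (selB2 0 C0 11150372597962164277853160740825020145598463) 295147905179352825853) 8589934591) :=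
  Ok2.run hw hf6 ⟨288,25,25,13,13⟩ 58
    (.chk true 0)
    (by decide +kernel)

theorem p0_6_1 : Ok2 par f6 Box3.unit (selB2 0 (selB2 1 (selB2 0 C0 11150372597962164277853160740825020145598463) 295147905179352825853) 8589934591) :=
  Ok2.run hw hf6 ⟨288,25,25,13,13⟩ 58
    (.chk true 0)
    (by decide +kernel)

theorem p0_6_2 : Ok2 par f6 ((Box3.unit.r 0).l 1) (selB2 1 (selB2 0 (selB2 0 C0 11150372597962164277853160740825020145598463) 295147905179352825853) 1) :=
  Ok2.run hw hf6 ⟨296,19,19,13,13⟩ 58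
    (.chk false 0)
    (by decide +kernel)

theorem p0_6_3 : Ok2 par f6 ((Box3.unit.r 0).l 1) (selB2 0 (selB2 0 (selB2 0 C0 11150372597962164277853160740825020145598463) 295147905179352825853) 1) :=
  Ok2.run hw hf6 ⟨426,19,19,13,13⟩ 58
    (.split 1 (.part 1 (.chk false 0) (.split 0 (.chk false 0) (.split 2 (.chk false 0) (.split 1 (.chk false 0) (.split 0 (.chk false 0) (.split 2 (.chk false 0) (.split 1 (.chk false 0) (.chk false 0)))))))) (.chk false 0))
    (by decide +kernel)

theorem p0_6_4 : Ok2 par f6 ((Box3.unit.r 0).r 1) (selB2 0 (selB2 0 C0 11150372597962164277853160740825020145598463) 295147905179352825853) :=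
  Ok2.run hw hf6 ⟨296,19,19,13,13⟩ 58
    (.chk false 0)
    (by decide +kernel)

theorem p0_6_5 : Ok2 par f6 (Box3.unit.l 0) (selB2 0 (selB2 0 C0 11150372597962164277853160740825020145598463) 295147905179352825853) :=
  Ok2.run hw hf6 ⟨267,19,19,13,13⟩ 58
    (.chk false 0)
    (by decide +kernel)

theorem p0_6_6 : Ok2 par f6 Box3.unit (selB2 1 C0 11150372597962164277853160740825020145598463) :=
  Ok2.run hw hf6 ⟨239,19,19,13,13⟩ 58
    (.chk false 512)
    (by decide +kernel)

theorem p0_7_0 : Ok2 par f7 ((Box3.unit.l 0).l 1) (selB2 1 (selB2 0 (selB2 1 (selB2 0 (selB2 0 (selB2 0 (selB2 0 C0 11150372594145743689541047598944008061589503) 14167099448608935641119) 82) 9813667847213481459713) 9223372036854775807) 2147483647) 65535) :=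
  Ok2.run hw hf7 ⟨371,25,25,13,13⟩ 58
    (.chk true 0)
    (by decide +kernel)

theorem p0_7_1 : Ok2 par f7 ((Box3.unit.l 0).l 1) (selB2 0 (selB2 0 (selB2 1 (selB2 0 (selB2 0 (selB2 0 (selB2 0 C0 11150372594145743689541047598944008061589503) 14167099448608935641119) 82) 9813667847213481459713) 9223372036854775807) 2147483647) 65535) :=
  Ok2.run hw hf7 ⟨371,25,25,13,13⟩ 58
    (.chk true 0)
    (by decide +kernel)

theorem p0_7_2 : Ok2 par f7 ((Box3.unit.l 0).l 1) (selB2 1 (selB2 1 (selB2 1 (selB2 0 (selB2 0 (selB2 0 (selB2 0 C0 11150372594145743689541047598944008061589503) 14167099448608935641119) 82) 9813667847213481459713) 9223372036854775807) 2147483647) 32767) :=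
  Ok2.run hw hf7 ⟨371,25,25,13,13⟩ 58
    (.chk true 0)
    (by decide +kernel)

theorem p0_7_3 : Ok2 par f7 ((Box3.unit.l 0).l 1) (selB2 0 (selB2 1 (selB2 1 (selB2 0 (selB2 0 (selB2 0 (selB2 0 C0 11150372594145743689541047598944008061589503) 14167099448608935641119) 82) 9813667847213481459713) 9223372036854775807) 2147483647) 32767) :=
  Ok2.run hw hf7 ⟨371,25,25,13,13⟩ 58
    (.chk true 0)
    (by decide +kernel)

theorem p0_7_4 : Ok2 par f7 ((Box3.unit.l 0).l 1) (selB2 0 (selB2 0 (selB2 0 (selB2 0 (selB2 0 C0 11150372594145743689541047598944008061589503) 14167099448608935641119) 82) 9813667847213481459713) 9223372036854775807) :=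
  Ok2.run hw hf7 ⟨365,19,19,13,13⟩ 58
    (.split 0 (.part 3 (.chk false 0) (.split 1 (.chk false 0) (.part 14 (.chk false 0) (.split 0 (.chk false 0) (.chk false 0))))) (.chk false 0))
    (by decide +kernel)

theorem p0_7_5 : Ok2 par f7 ((Box3.unit.l 0).l 1) (selB2 1 (selB2 0 (selB2 0 (selB2 0 C0 11150372594145743689541047598944008061589503) 14167099448608935641119) 82) 9813667847213481459713) :=
  Ok2.run hw hf7 ⟨310,19,19,13,13⟩ 58
    (.chk false 512)
    (by decide +kernel)

theorem p0_7_6 : Ok2 par f7 ((Box3.unit.l 0).r 1) (selB2 1 (selB2 0 (selB2 1 (selB2 0 (selB2 0 (selB2 0 (selB2 0 C0 11150372594145743689541047598944008061589503) 14167099448608935641119) 82) 14001078751945549676544) 18446744073709551600) 1073741823) 32767) :=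
  Ok2.run hw hf7 ⟨371,25,25,13,13⟩ 58
    (.chk true 0)
    (by decide +kernel)

theorem p0_7_7 : Ok2 par f7 ((Box3.unit.l 0).r 1) (selB2 0 (selB2 0 (selB2 1 (selB2 0 (selB2 0 (selB2 0 (selB2 0 C0 11150372594145743689541047598944008061589503) 14167099448608935641119) 82) 14001078751945549676544) 18446744073709551600) 1073741823) 32767) :=
  Ok2.run hw hf7 ⟨371,25,25,13,13⟩ 58
    (.chk true 0)
    (by decide +kernel)

theorem p0_7_8 : Ok2 par f7 ((Box3.unit.l 0).r 1) (selB2 1 (selB2 1 (selB2 1 (selB2 0 (selB2 0 (selB2 0 (selB2 0 C0 11150372594145743689541047598944008061589503) 14167099448608935641119) 82) 14001078751945549676544) 18446744073709551600) 1073741823) 32767) :=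
  Ok2.run hw hf7 ⟨371,25,25,13,13⟩ 58
    (.chk true 0)
    (by decide +kernel)

theorem p0_7_9 : Ok2 par f7 ((Box3.unit.l 0).r 1) (selB2 0 (selB2 1 (selB2 1 (selB2 0 (selB2 0 (selB2 0 (selB2 0 C0 11150372594145743689541047598944008061589503) 14167099448608935641119) 82) 14001078751945549676544) 18446744073709551600) 1073741823) 32767) :=
  Ok2.run hw hf7 ⟨371,25,25,13,13⟩ 58
    (.chk true 0)
    (by decide +kernel)

theorem p0_7_10 : Ok2 par f7 ((((((Box3.unit.l 0).r 1).l 0).l 1).r 2).l 0) (selB2 1 (selB2 0 (selB2 0 (selB2 0 (selB2 0 (selB2 0 (selB2 0 (selB2 0 (selB2 0 (selB2 0 C0 11150372594145743689541047598944008061589503) 14167099448608935641119) 82) 14001078751945549676544) 18446744073709551600) 1) 1) 8) 4) 1) :=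
  Ok2.run hw hf7 ⟨383,19,19,13,13⟩ 58
    (.chk false 1024)
    (by decide +kernel)

theorem p0_7_11 : Ok2 par f7 ((((((Box3.unit.l 0).r 1).l 0).l 1).r 2).l 0) (selB2 0 (selB2 0 (selB2 0 (selB2 0 (selB2 0 (selB2 0 (selB2 0 (selB2 0 (selB2 0 (selB2 0 C0 11150372594145743689541047598944008061589503) 14167099448608935641119) 82) 14001078751945549676544) 18446744073709551600) 1) 1) 8) 4) 1) :=
  Ok2.run hw hf7 ⟨527,25,25,13,13⟩ 58
    (.split 1 (.chk true 0) (.split 0 (.split 2 (.chk true 0) (.chk true 0)) (.split 2 (.chk true 0) (.chk true 0))))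
    (by decide +kernel)

theorem p0_7_12 : Ok2 par f7 (((((((((((((Box3.unit.l 0).r 1).l 0).l 1).r 2).r 0).r 2).r 1).r 2).r 0).r 1).r 2).l 1) (selB2 0 (selB2 0 (selB2 0 (selB2 0 (selB2 0 (selB2 0 (selB2 0 (selB2 0 (selB2 0 (selB2 0 C0 11150372594145743689541047598944008061589503) 14167099448608935641119) 82) 14001078751945549676544) 18446744073709551600) 1) 1) 8) 4) 2) :=
  Ok2.run hw hf7 ⟨492,19,19,13,13⟩ 58
    (.chk false 1024)
    (by decide +kernel)

theorem p0_7_13 : Ok2 par f7 (((((((((((((Box3.unit.l 0).r 1).l 0).l 1).r 2).r 0).r 2).r 1).r 2).r 0).r 1).r 2).r 1) (selB2 0 (selB2 0 (selB2 0 (selB2 0 (selB2 0 (selB2 0 (selB2 0 (selB2 0 (selB2 0 (selB2 0 C0 11150372594145743689541047598944008061589503) 14167099448608935641119) 82) 14001078751945549676544) 18446744073709551600) 1) 1) 8) 4) 2) :=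
  Ok2.run hw hf7 ⟨656,25,25,13,13⟩ 58
    (.split 0 (.chk false 1024) (.split 2 (.chk true 0) (.split 1 (.chk false 1024) (.chk true 0))))
    (by decide +kernel)

theorem p0_7_14 : Ok2 par f7 ((((((((((((Box3.unit.l 0).r 1).l 0).l 1).r 2).r 0).r 2).r 1).r 2).r 0).r 1).l 2) (selB2 0 (selB2 0 (selB2 0 (selB2 0 (selB2 0 (selB2 0 (selB2 0 (selB2 0 (selB2 0 (selB2 0 C0 11150372594145743689541047598944008061589503) 14167099448608935641119) 82) 14001078751945549676544) 18446744073709551600) 1) 1) 8) 4) 2) :=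
  Ok2.run hw hf7 ⟨619,25,25,13,13⟩ 58
    (.split 1 (.chk false 1024) (.split 0 (.chk false 1024) (.chk true 0)))
    (by decide +kernel)

theorem p0_7_15 : Ok2 par f7 (((((((((((Box3.unit.l 0).r 1).l 0).l 1).r 2).r 0).r 2).r 1).r 2).r 0).l 1) (selB2 0 (selB2 0 (selB2 0 (selB2 0 (selB2 0 (selB2 0 (selB2 0 (selB2 0 (selB2 0 (selB2 0 C0 11150372594145743689541047598944008061589503) 14167099448608935641119) 82) 14001078751945549676544) 18446744073709551600) 1) 1) 8) 4) 2) :=
  Ok2.run hw hf7 ⟨460,19,19,13,13⟩ 58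
    (.chk false 1024)
    (by decide +kernel)

theorem p0_7_16 : Ok2 par f7 ((((((((((Box3.unit.l 0).r 1).l 0).l 1).r 2).r 0).r 2).r 1).r 2).l 0) (selB2 0 (selB2 0 (selB2 0 (selB2 0 (selB2 0 (selB2 0 (selB2 0 (selB2 0 (selB2 0 (selB2 0 C0 11150372594145743689541047598944008061589503) 14167099448608935641119) 82) 14001078751945549676544) 18446744073709551600) 1) 1) 8) 4) 2) :=
  Ok2.run hw hf7 ⟨445,19,19,13,13⟩ 58
    (.chk false 1024)
    (by decide +kernel)

theorem p0_7_17 : Ok2 par f7 (((((((((Box3.unit.l 0).r 1).l 0).l 1).r 2).r 0).r 2).r 1).l 2) (selB2 0 (selB2 0 (selB2 0 (selB2 0 (selB2 0 (selB2 0 (selB2 0 (selB2 0 (selB2 0 (selB2 0 C0 11150372594145743689541047598944008061589503) 14167099448608935641119) 82) 14001078751945549676544) 18446744073709551600) 1) 1) 8) 4) 2) :=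
  Ok2.run hw hf7 ⟨532,25,25,13,13⟩ 58
    (.split 0 (.chk false 1024) (.chk true 0))
    (by decide +kernel)

theorem p0_7_18 : Ok2 par f7 ((((((((Box3.unit.l 0).r 1).l 0).l 1).r 2).r 0).r 2).l 1) (selB2 0 (selB2 0 (selB2 0 (selB2 0 (selB2 0 (selB2 0 (selB2 0 (selB2 0 (selB2 0 (selB2 0 C0 11150372594145743689541047598944008061589503) 14167099448608935641119) 82) 14001078751945549676544) 18446744073709551600) 1) 1) 8) 4) 2) :=
  Ok2.run hw hf7 ⟨408,19,19,13,13⟩ 58
    (.chk false 1024)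
    (by decide +kernel)

theorem p0_7_19 : Ok2 par f7 (((((((Box3.unit.l 0).r 1).l 0).l 1).r 2).r 0).l 2) (selB2 0 (selB2 0 (selB2 0 (selB2 0 (selB2 0 (selB2 0 (selB2 0 (selB2 0 (selB2 0 (selB2 0 C0 11150372594145743689541047598944008061589503) 14167099448608935641119) 82) 14001078751945549676544) 18446744073709551600) 1) 1) 8) 4) 2) :=
  Ok2.run hw hf7 ⟨467,25,25,13,13⟩ 58
    (.chk true 0)
    (by decide +kernel)

theorem p0_7_20 : Ok2 par f7 ((((((Box3.unit.l 0).r 1).l 0).l 1).r 2).r 0) (selB2 1 (selB2 0 (selB2 0 (selB2 0 (selB2 0 (selB2 0 (selB2 0 (selB2 0 (selB2 0 (selB2 0 C0 11150372594145743689541047598944008061589503) 14167099448608935641119) 82) 14001078751945549676544) 18446744073709551600) 1) 1) 8) 4) 2) :=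
  Ok2.run hw hf7 ⟨458,25,25,13,13⟩ 58
    (.chk true 0)
    (by decide +kernel)

theorem p0_7_21 : Ok2 par f7 (((((Box3.unit.l 0).r 1).l 0).l 1).r 2) (selB2 1 (selB2 0 (selB2 0 (selB2 0 (selB2 0 (selB2 0 (selB2 0 (selB2 0 (selB2 0 C0 11150372594145743689541047598944008061589503) 14167099448608935641119) 82) 14001078751945549676544) 18446744073709551600) 1) 1) 8) 4) :=
  Ok2.run hw hf7 ⟨363,19,19,13,13⟩ 58
    (.chk false 0)
    (by decide +kernel)

theorem p0_7_22 : Ok2 par f7 (((((Box3.unit.l 0).r 1).l 0).l 1).l 2) (selB2 0 (selB2 0 (selB2 0 (selB2 0 (selB2 0 (selB2 0 (selB2 0 (selB2 0 C0 11150372594145743689541047598944008061589503) 14167099448608935641119) 82) 14001078751945549676544) 18446744073709551600) 1) 1) 8) :=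
  Ok2.run hw hf7 ⟨436,25,25,13,13⟩ 58
    (.part 4 (.chk false 0) (.chk true 0))
    (by decide +kernel)

theorem p0_7_23 : Ok2 par f7 ((((Box3.unit.l 0).r 1).l 0).l 1) (selB2 1 (selB2 0 (selB2 0 (selB2 0 (selB2 0 (selB2 0 (selB2 0 (selB2 0 C0 11150372594145743689541047598944008061589503) 14167099448608935641119) 82) 14001078751945549676544) 18446744073709551600) 1) 1) 8) :=
  Ok2.run hw hf7 ⟨345,19,19,13,13⟩ 58
    (.chk false 0)
    (by decide +kernel)


end Crest.Agent.R163.R2
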