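import Crest.Agent.R163.Q3.D.R2.S0
import Crest.Agent.R163.Q3.D.R2.H

set_option autoImplicit false
set_option maxRecDepth 100000
set_option linter.all false
set_option Elab.async false

namespace Crest.Agent.R163.R2

theorem p0_7_24 : Ok2 par f7 ((((((((((((Box3.unit.l 0).r 1).l 0).r 1).r 2).r 0).r 2).l 1).r 2).l 0).r 1).l 2) (selB2 0 (selB2 0 (selB2 0 (selB2 0 (selB2 0 (selB2 0 (selB2 0 (selB2 0 (selB2 0 C0 11150372594145743689541047598944008061589503) 14167099448608935641119) 82) 14001078751945549676544) 18446744073709551600) 1) 1) 12) 2) :=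
  Ok2.run hw hf7 ⟨601,25,25,13,13⟩ 58
    (.split 0 (.chk false 1024) (.chk true 0))
    (by decide +kernel)

theorem p0_7_25 : Ok2 par f7 ((((((((((((Box3.unit.l 0).r 1).l 0).r 1).r 2).r 0).r 2).l 1).r 2).l 0).r 1).r 2) (selB2 0 (selB2 0 (selB2 0 (selB2 0 (selB2 0 (selB2 0 (selB2 0 (selB2 0 (selB2 0 C0 11150372594145743689541047598944008061589503) 14167099448608935641119) 82) 14001078751945549676544) 18446744073709551600) 1) 1) 12) 2) :=
  Ok2.run hw hf7 ⟨626,25,25,13,13⟩ 58
    (.split 0 (.chk false 1024) (.split 1 (.chk false 1024) (.chk true 0)))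
    (by decide +kernel)

theorem p0_7_26 : Ok2 par f7 (((((((((((Box3.unit.l 0).r 1).l 0).r 1).r 2).r 0).r 2).l 1).r 2).l 0).l 1) (selB2 0 (selB2 0 (selB2 0 (selB2 0 (selB2 0 (selB2 0 (selB2 0 (selB2 0 (selB2 0 C0 11150372594145743689541047598944008061589503) 14167099448608935641119) 82) 14001078751945549676544) 18446744073709551600) 1) 1) 12) 2) :=
  Ok2.run hw hf7 ⟨467,19,19,13,13⟩ 58
    (.chk false 1024)
    (by decide +kernel)

theorem p0_7_27 : Ok2 par f7 (((((((((((((Box3.unit.l 0).r 1).l 0).r 1).r 2).r 0).r 2).l 1).r 2).r 0).l 1).r 2).l 1) (selB2 0 (selB2 0 (selB2 0 (selB2 0 (selB2 0 (selB2 0 (selB2 0 (selB2 0 (selB2 0 C0 11150372594145743689541047598944008061589503) 14167099448608935641119) 82) 14001078751945549676544) 18446744073709551600) 1) 1) 12) 2) :=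
  Ok2.run hw hf7 ⟨621,25,25,13,13⟩ 58
    (.split 0 (.chk false 1024) (.chk true 0))
    (by decide +kernel)

theorem p0_7_28 : Ok2 par f7 (((((((((((((Box3.unit.l 0).r 1).l 0).r 1).r 2).r 0).r 2).l 1).r 2).r 0).l 1).r 2).r 1) (selB2 0 (selB2 0 (selB2 0 (selB2 0 (selB2 0 (selB2 0 (selB2 0 (selB2 0 (selB2 0 C0 11150372594145743689541047598944008061589503) 14167099448608935641119) 82) 14001078751945549676544) 18446744073709551600) 1) 1) 12) 2) :=
  Ok2.run hw hf7 ⟨659,25,25,13,13⟩ 58
    (.split 0 (.split 2 (.chk true 0) (.split 1 (.chk false 1024) (.chk true 0))) (.chk true 0))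
    (by decide +kernel)

theorem p0_7_29 : Ok2 par f7 ((((((((((((Box3.unit.l 0).r 1).l 0).r 1).r 2).r 0).r 2).l 1).r 2).r 0).l 1).l 2) (selB2 0 (selB2 0 (selB2 0 (selB2 0 (selB2 0 (selB2 0 (selB2 0 (selB2 0 (selB2 0 C0 11150372594145743689541047598944008061589503) 14167099448608935641119) 82) 14001078751945549676544) 18446744073709551600) 1) 1) 12) 2) :=
  Ok2.run hw hf7 ⟨573,25,25,13,13⟩ 58
    (.chk true 0)
    (by decide +kernel)

theorem p0_7_30 : Ok2 par f7 (((((((((((Box3.unit.l 0).r 1).l 0).r 1).r 2).r 0).r 2).l 1).r 2).r 0).r 1) (selB2 0 (selB2 0 (selB2 0 (selB2 0 (selB2 0 (selB2 0 (selB2 0 (selB2 0 (selB2 0 C0 11150372594145743689541047598944008061589503) 14167099448608935641119) 82) 14001078751945549676544) 18446744073709551600) 1) 1) 12) 2) :=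
  Ok2.run hw hf7 ⟨564,25,25,13,13⟩ 58
    (.chk true 0)
    (by decide +kernel)

theorem p0_7_31 : Ok2 par f7 (((((((((Box3.unit.l 0).r 1).l 0).r 1).r 2).r 0).r 2).l 1).l 2) (selB2 0 (selB2 0 (selB2 0 (selB2 0 (selB2 0 (selB2 0 (selB2 0 (selB2 0 (selB2 0 C0 11150372594145743689541047598944008061589503) 14167099448608935641119) 82) 14001078751945549676544) 18446744073709551600) 1) 1) 12) 2) :=
  Ok2.run hw hf7 ⟨564,25,25,13,13⟩ 58
    (.split 0 (.split 1 (.chk false 1024) (.chk true 0)) (.chk true 0))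
    (by decide +kernel)

theorem p0_7_32 : Ok2 par f7 (((((((((((Box3.unit.l 0).r 1).l 0).r 1).r 2).r 0).r 2).r 1).r 2).l 0).l 1) (selB2 0 (selB2 0 (selB2 0 (selB2 0 (selB2 0 (selB2 0 (selB2 0 (selB2 0 (selB2 0 C0 11150372594145743689541047598944008061589503) 14167099448608935641119) 82) 14001078751945549676544) 18446744073709551600) 1) 1) 12) 2) :=
  Ok2.run hw hf7 ⟨629,25,25,13,13⟩ 58
    (.split 2 (.chk true 0) (.split 0 (.split 1 (.chk false 1024) (.chk true 0)) (.chk true 0)))
    (by decide +kernel)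

theorem p0_7_33 : Ok2 par f7 (((((((((((Box3.unit.l 0).r 1).l 0).r 1).r 2).r 0).r 2).r 1).r 2).l 0).r 1) (selB2 0 (selB2 0 (selB2 0 (selB2 0 (selB2 0 (selB2 0 (selB2 0 (selB2 0 (selB2 0 C0 11150372594145743689541047598944008061589503) 14167099448608935641119) 82) 14001078751945549676544) 18446744073709551600) 1) 1) 12) 2) :=
  Ok2.run hw hf7 ⟨569,25,25,13,13⟩ 58
    (.chk true 0)
    (by decide +kernel)

theorem p0_7_34 : Ok2 par f7 ((((((((((Box3.unit.l 0).r 1).l 0).r 1).r 2).r 0).r 2).r 1).r 2).r 0) (selB2 0 (selB2 0 (selB2 0 (selB2 0 (selB2 0 (selB2 0 (selB2 0 (selB2 0 (selB2 0 C0 11150372594145743689541047598944008061589503) 14167099448608935641119) 82) 14001078751945549676544) 18446744073709551600) 1) 1) 12) 2) :=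
  Ok2.run hw hf7 ⟨542,25,25,13,13⟩ 58
    (.chk true 0)
    (by decide +kernel)

theorem p0_7_35 : Ok2 par f7 (((((((((Box3.unit.l 0).r 1).l 0).r 1).r 2).r 0).r 2).r 1).l 2) (selB2 0 (selB2 0 (selB2 0 (selB2 0 (selB2 0 (selB2 0 (selB2 0 (selB2 0 (selB2 0 C0 11150372594145743689541047598944008061589503) 14167099448608935641119) 82) 14001078751945549676544) 18446744073709551600) 1) 1) 12) 2) :=
  Ok2.run hw hf7 ⟨517,25,25,13,13⟩ 58
    (.chk true 0)
    (by decide +kernel)

theorem p0_7_36 : Ok2 par f7 (((((((Box3.unit.l 0).r 1).l 0).r 1).r 2).r 0).l 2) (selB2 0 (selB2 0 (selB2 0 (selB2 0 (selB2 0 (selB2 0 (selB2 0 (selB2 0 (selB2 0 C0 11150372594145743689541047598944008061589503) 14167099448608935641119) 82) 14001078751945549676544) 18446744073709551600) 1) 1) 12) 2) :=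
  Ok2.run hw hf7 ⟨476,25,25,13,13⟩ 58
    (.chk true 0)
    (by decide +kernel)

theorem p0_7_37 : Ok2 par f7 ((((((Box3.unit.l 0).r 1).l 0).r 1).r 2).r 0) (selB2 1 (selB2 0 (selB2 0 (selB2 0 (selB2 0 (selB2 0 (selB2 0 (selB2 0 (selB2 0 C0 11150372594145743689541047598944008061589503) 14167099448608935641119) 82) 14001078751945549676544) 18446744073709551600) 1) 1) 12) 2) :=
  Ok2.run hw hf7 ⟨467,25,25,13,13⟩ 58
    (.chk true 0)
    (by decide +kernel)

theorem p0_7_38 : Ok2 par f7 ((((((Box3.unit.l 0).r 1).l 0).r 1).r 2).l 0) (selB2 0 (selB2 0 (selB2 0 (selB2 0 (selB2 0 (selB2 0 (selB2 0 (selB2 0 C0 11150372594145743689541047598944008061589503) 14167099448608935641119) 82) 14001078751945549676544) 18446744073709551600) 1) 1) 12) :=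
  Ok2.run hw hf7 ⟨531,25,25,13,13⟩ 58
    (.part 1 (.chk false 1024) (.split 1 (.split 0 (.split 2 (.chk true 0) (.chk true 0)) (.chk true 0)) (.chk true 0)))
    (by decide +kernel)

theorem p0_7_39 : Ok2 par f7 (((((Box3.unit.l 0).r 1).l 0).r 1).l 2) (selB2 0 (selB2 0 (selB2 0 (selB2 0 (selB2 0 (selB2 0 (selB2 0 (selB2 0 C0 11150372594145743689541047598944008061589503) 14167099448608935641119) 82) 14001078751945549676544) 18446744073709551600) 1) 1) 12) :=
  Ok2.run hw hf7 ⟨444,25,25,13,13⟩ 58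
    (.chk true 0)
    (by decide +kernel)

theorem p0_7_40 : Ok2 par f7 ((((Box3.unit.l 0).r 1).l 0).r 1) (selB2 1 (selB2 0 (selB2 0 (selB2 0 (selB2 0 (selB2 0 (selB2 0 (selB2 0 C0 11150372594145743689541047598944008061589503) 14167099448608935641119) 82) 14001078751945549676544) 18446744073709551600) 1) 1) 12) :=
  Ok2.run hw hf7 ⟨354,19,19,13,13⟩ 58
    (.chk false 0)
    (by decide +kernel)

theorem p0_7_41 : Ok2 par f7 (((Box3.unit.l 0).r 1).l 0) (selB2 1 (selB2 0 (selB2 0 (selB2 0 (selB2 0 (selB2 0 (selB2 0 C0 11150372594145743689541047598944008061589503) 14167099448608935641119) 82) 14001078751945549676544) 18446744073709551600) 1) 1) :=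
  Ok2.run hw hf7 ⟨399,25,25,13,13⟩ 58
    (.chk true 0)
    (by decide +kernel)

theorem p0_7_42 : Ok2 par f7 (((Box3.unit.l 0).r 1).l 0) (selB2 1 (selB2 0 (selB2 0 (selB2 0 (selB2 0 (selB2 0 C0 11150372594145743689541047598944008061589503) 14167099448608935641119) 82) 14001078751945549676544) 18446744073709551600) 1) :=
  Ok2.run hw hf7 ⟨332,19,19,13,13⟩ 58
    (.chk false 512)
    (by decide +kernel)

theorem p0_7_43 : Ok2 par f7 (((Box3.unit.l 0).r 1).r 0) (selB2 1 (selB2 0 (selB2 0 (selB2 0 (selB2 0 (selB2 0 (selB2 0 C0 11150372594145743689541047598944008061589503) 14167099448608935641119) 82) 14001078751945549676544) 18446744073709551600) 48) 11) :=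
  Ok2.run hw hf7 ⟨391,25,25,13,13⟩ 58
    (.chk true 0)
    (by decide +kernel)

theorem p0_7_44 : Ok2 par f7 (((Box3.unit.l 0).r 1).r 0) (selB2 0 (selB2 0 (selB2 0 (selB2 0 (selB2 0 (selB2 0 (selB2 0 C0 11150372594145743689541047598944008061589503) 14167099448608935641119) 82) 14001078751945549676544) 18446744073709551600) 48) 11) :=
  Ok2.run hw hf7 ⟨468,25,25,13,13⟩ 58
    (.split 2 (.chk true 0) (.split 1 (.split 2 (.chk true 0) (.split 1 (.chk true 0) (.chk true 0))) (.chk true 0)))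
    (by decide +kernel)

theorem p0_7_45 : Ok2 par f7 (((Box3.unit.l 0).r 1).r 0) (selB2 1 (selB2 0 (selB2 0 (selB2 0 (selB2 0 (selB2 0 C0 11150372594145743689541047598944008061589503) 14167099448608935641119) 82) 14001078751945549676544) 18446744073709551600) 48) :=
  Ok2.run hw hf7 ⟨323,19,19,13,13⟩ 58
    (.chk false 0)
    (by decide +kernel)

theorem p0_7_46 : Ok2 par f7 ((Box3.unit.l 0).r 1) (selB2 1 (selB2 0 (selB2 0 (selB2 0 C0 11150372594145743689541047598944008061589503) 14167099448608935641119) 82) 14001078751945549676544) :=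
  Ok2.run hw hf7 ⟨310,19,19,13,13⟩ 58
    (.chk false 0)
    (by decide +kernel)

theorem p0_7_47 : Ok2 par f7 (Box3.unit.l 0) (selB2 1 (selB2 0 (selB2 0 C0 11150372594145743689541047598944008061589503) 14167099448608935641119) 82) :=
  Ok2.run hw hf7 ⟨337,25,25,13,13⟩ 58
    (.chk true 0)
    (by decide +kernel)

theorem p0_7_48 : Ok2 par f7 ((Box3.unit.r 0).l 1) (selB2 1 (selB2 0 (selB2 1 (selB2 0 (selB2 0 (selB2 0 (selB2 0 C0 11150372594145743689541047598944008061589503) 14167099448608935641119) 150968153499238970425344) 89) 9223372036854775800) 1073741823) 32767) :=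
  Ok2.run hw hf7 ⟨371,25,25,13,13⟩ 58
    (.chk true 0)
    (by decide +kernel)

theorem p0_7_49 : Ok2 par f7 ((Box3.unit.r 0).l 1) (selB2 0 (selB2 0 (selB2 1 (selB2 0 (selB2 0 (selB2 0 (selB2 0 C0 11150372594145743689541047598944008061589503) 14167099448608935641119) 150968153499238970425344) 89) 9223372036854775800) 1073741823) 32767) :=
  Ok2.run hw hf7 ⟨371,25,25,13,13⟩ 58
    (.chk true 0)
    (by decide +kernel)

theorem p0_7_50 : Ok2 par f7 ((Box3.unit.r 0).l 1) (selB2 1 (selB2 1 (selB2 1 (selB2 0 (selB2 0 (selB2 0 (selB2 0 C0 11150372594145743689541047598944008061589503) 14167099448608935641119) 150968153499238970425344) 89) 9223372036854775800) 1073741823) 32767) :=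
  Ok2.run hw hf7 ⟨371,25,25,13,13⟩ 58
    (.chk true 0)
    (by decide +kernel)

theorem p0_7_51 : Ok2 par f7 ((Box3.unit.r 0).l 1) (selB2 0 (selB2 1 (selB2 1 (selB2 0 (selB2 0 (selB2 0 (selB2 0 C0 11150372594145743689541047598944008061589503) 14167099448608935641119) 150968153499238970425344) 89) 9223372036854775800) 1073741823) 32767) :=
  Ok2.run hw hf7 ⟨371,25,25,13,13⟩ 58
    (.chk true 0)
    (by decide +kernel)

theorem p0_7_52 : Ok2 par f7 ((((Box3.unit.r 0).l 1).l 1).l 0) (selB2 0 (selB2 0 (selB2 0 (selB2 0 (selB2 0 (selB2 0 C0 11150372594145743689541047598944008061589503) 14167099448608935641119) 150968153499238970425344) 89) 9223372036854775800) 2) :=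
  Ok2.run hw hf7 ⟨419,25,25,13,13⟩ 58
    (.part 1 (.chk false 512) (.chk true 0))
    (by decide +kernel)

theorem p0_7_53 : Ok2 par f7 ((((Box3.unit.r 0).l 1).l 1).r 0) (selB2 0 (selB2 0 (selB2 0 (selB2 0 (selB2 0 (selB2 0 C0 11150372594145743689541047598944008061589503) 14167099448608935641119) 150968153499238970425344) 89) 9223372036854775800) 2) :=
  Ok2.run hw hf7 ⟨471,25,25,13,13⟩ 58
    (.part 2 (.chk true 0) (.split 2 (.split 0 (.chk false 512) (.chk true 0)) (.chk true 0)))
    (by decide +kernel)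

theorem p0_7_54 : Ok2 par f7 (((Box3.unit.r 0).l 1).l 1) (selB2 1 (selB2 0 (selB2 0 (selB2 0 (selB2 0 (selB2 0 C0 11150372594145743689541047598944008061589503) 14167099448608935641119) 150968153499238970425344) 89) 9223372036854775800) 2) :=
  Ok2.run hw hf7 ⟨399,25,25,13,13⟩ 58
    (.chk true 0)
    (by decide +kernel)

theorem p0_7_55 : Ok2 par f7 (((Box3.unit.r 0).l 1).r 1) (selB2 0 (selB2 0 (selB2 0 (selB2 0 (selB2 0 C0 11150372594145743689541047598944008061589503) 14167099448608935641119) 150968153499238970425344) 89) 9223372036854775800) :=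
  Ok2.run hw hf7 ⟨391,25,25,13,13⟩ 58
    (.chk true 0)
    (by decide +kernel)

theorem p0_7_56 : Ok2 par f7 ((Box3.unit.r 0).r 1) (selB2 1 (selB2 0 (selB2 0 (selB2 0 (selB2 0 (selB2 0 C0 11150372594145743689541047598944008061589503) 14167099448608935641119) 150968153499238970425344) 89) 2147483647) 65535) :=
  Ok2.run hw hf7 ⟨372,25,25,13,13⟩ 58
    (.chk true 0)
    (by decide +kernel)

theorem p0_7_57 : Ok2 par f7 ((Box3.unit.r 0).r 1) (selB2 0 (selB2 0 (selB2 0 (selB2 0 (selB2 0 (selB2 0 C0 11150372594145743689541047598944008061589503) 14167099448608935641119) 150968153499238970425344) 89) 2147483647) 65535) :=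
  Ok2.run hw hf7 ⟨372,25,25,13,13⟩ 58
    (.chk true 0)
    (by decide +kernel)

theorem p0_7_58 : Ok2 par f7 ((Box3.unit.r 0).r 1) (selB2 1 (selB2 1 (selB2 0 (selB2 0 (selB2 0 (selB2 0 C0 11150372594145743689541047598944008061589503) 14167099448608935641119) 150968153499238970425344) 89) 2147483647) 32767) :=
  Ok2.run hw hf7 ⟨372,25,25,13,13⟩ 58
    (.chk true 0)
    (by decide +kernel)

theorem p0_7_59 : Ok2 par f7 ((Box3.unit.r 0).r 1) (selB2 0 (selB2 1 (selB2 0 (selB2 0 (selB2 0 (selB2 0 C0 11150372594145743689541047598944008061589503) 14167099448608935641119) 150968153499238970425344) 89) 2147483647) 32767) :=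
  Ok2.run hw hf7 ⟨372,25,25,13,13⟩ 58
    (.chk true 0)
    (by decide +kernel)

theorem p0_7_60 : Ok2 par f7 (Box3.unit.r 0) (selB2 1 (selB2 0 (selB2 0 (selB2 0 C0 11150372594145743689541047598944008061589503) 14167099448608935641119) 150968153499238970425344) 89) :=
  Ok2.run hw hf7 ⟨337,25,25,13,13⟩ 58
    (.chk true 0)
    (by decide +kernel)

theorem p0_7_61 : Ok2 par f7 (Box3.unit.r 0) (selB2 1 (selB2 0 (selB2 0 C0 11150372594145743689541047598944008061589503) 14167099448608935641119) 150968153499238970425344) :=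
  Ok2.run hw hf7 ⟨282,19,19,13,13⟩ 58
    (.chk false 0)
    (by decide +kernel)


end Crest.Agent.R163.R2
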