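import Crest.Agent.R163.Q3.D.R2.P0_0
import Crest.Agent.R163.Q3.D.R2.P0_1
import Crest.Agent.R163.Q3.D.R2.P0_2
import Crest.Agent.R163.Q3.D.R2.P0_3
import Crest.Agent.R163.Q3.D.R2.P0_4
import Crest.Agent.R163.Q3.D.R2.P0_5
import Crest.Agent.R163.Q3.D.R2.P0_6

set_option autoImplicit false
set_option maxRecDepth 100000
set_option linter.all false
set_option Elab.async false

namespace Crest.Agent.R163.R2

theorem o0_7 : Ok2 par f7 Box3.unit C0 :=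
  (Ok2.part 11150372594145743689541047598944008061589503 p0_7_63 (Ok2.part 14167099448608935641119 p0_7_62 (Ok2.split 0 (Ok2.part 82 p0_7_47 (Ok2.split 1 (Ok2.part 9813667847213481459713 p0_7_5 (Ok2.part 9223372036854775807 (Ok2.part 2147483647 (Ok2.part 32767 p0_7_2 p0_7_3) (Ok2.part 65535 p0_7_0 p0_7_1)) p0_7_4)) (Ok2.part 14001078751945549676544 p0_7_46 (Ok2.part 18446744073709551600 (Ok2.part 1073741823 (Ok2.part 32767 p0_7_8 p0_7_9) (Ok2.part 32767 p0_7_6 p0_7_7)) (Ok2.split 0 (Ok2.part 1 p0_7_42 (Ok2.part 1 p0_7_41 (Ok2.split 1 (Ok2.part 8 p0_7_23 (Ok2.split 2 p0_7_22 (Ok2.part 4 p0_7_21 (Ok2.split 0 (Ok2.part 1 p0_7_10 p0_7_11) (Ok2.part 2 p0_7_20 (Ok2.split 2 p0_7_19 (Ok2.split 1 p0_7_18 (Ok2.split 2 p0_7_17 (Ok2.split 0 p0_7_16 (Ok2.split 1 p0_7_15 (Ok2.split 2 p0_7_14 (Ok2.split 1 p0_7_12 p0_7_13)))))))))))) (Ok2.part 12 p0_7_40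 (Ok2.split 2 p0_7_39 (Ok2.split 0 p0_7_38 (Ok2.part 2 p0_7_37 (Ok2.split 2 p0_7_36 (Ok2.split 1 (Ok2.split 2 p0_7_31 (Ok2.split 0 (Ok2.split 1 p0_7_26 (Ok2.split 2 p0_7_24 p0_7_25)) (Ok2.split 1 (Ok2.split 2 p0_7_29 (Ok2.split 1 p0_7_27 p0_7_28)) p0_7_30))) (Ok2.split 2 p0_7_35 (Ok2.split 0 (Ok2.split 1 p0_7_32 p0_7_33) p0_7_34))))))))))) (Ok2.part 48 p0_7_45 (Ok2.part 11 p0_7_43 p0_7_44))))))) (Ok2.part 150968153499238970425344 p0_7_61 (Ok2.part 89 p0_7_60 (Ok2.split 1 (Ok2.part 9223372036854775800 (Ok2.part 1073741823 (Ok2.part 32767 p0_7_50 p0_7_51) (Ok2.part 32767 p0_7_48 p0_7_49)) (Ok2.split 1 (Ok2.part 2 p0_7_54 (Ok2.split 0 p0_7_52 p0_7_53)) p0_7_55)) (Ok2.part 2147483647 (Ok2.part 32767 p0_7_58 p0_7_59) (Ok2.part 65535 p0_7_56 p0_7_57))))))))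
theorem o0_6 : Ok2 par f6 Box3.unit C0 :=
  (Ok2.part 11150372597962164277853160740825020145598463 p0_6_6 (Ok2.part 295147905179352825853 (Ok2.part 8589934591 p0_6_0 p0_6_1) (Ok2.split 0 p0_6_5 (Ok2.split 1 (Ok2.part 1 p0_6_2 p0_6_3) p0_6_4))))
theorem o0_5 : Ok2 par f5 Box3.unit C0 :=
  (Ok2.part 9750451445405838903052822984073041764417535 p0_5_35 (Ok2.part 73786976294838206461 (Ok2.part 4294967295 p0_5_0 p0_5_1) (Ok2.split 0 (Ok2.part 196151 p0_5_17 (Ok2.split 1 p0_5_16 (Ok2.part 65536 p0_5_15 (Ok2.split 0 (Ok2.part 50431 p0_5_6 (Ok2.split 1 p0_5_5 (Ok2.part 12 p0_5_4 (Ok2.split 2 p0_5_2 p0_5_3)))) (Ok2.part 66305 p0_5_14 (Ok2.split 1 p0_5_13 (Ok2.part 896 p0_5_12 (Ok2.split 2 p0_5_11 (Ok2.split 0 p0_5_10 (Ok2.part 691 p0_5_9 (Ok2.split 1 p0_5_7 p0_5_8))))))))))) (Ok2.part 2011168777 p0_5_34 (Ok2.split 1 p0_5_33 (Ok2.part 526340 p0_5_32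 (Ok2.split 0 (Ok2.part 7 p0_5_29 (Ok2.split 1 p0_5_28 (Ok2.part 12291 p0_5_27 (Ok2.split 2 (Ok2.part 145 p0_5_21 (Ok2.split 0 (Ok2.part 93 p0_5_18 p0_5_19) p0_5_20)) (Ok2.split 0 (Ok2.part 62 p0_5_22 p0_5_23) (Ok2.part 641 p0_5_26 (Ok2.split 1 p0_5_24 p0_5_25))))))) (Ok2.part 129087 p0_5_30 p0_5_31))))))))
theorem o0_4 : Ok2 par f4 Box3.unit C0 :=
  (Ok2.part 11150372443455840995515726939561396016250879 (Ok2.part 73786976294838206463 p0_4_0 p0_4_1) (Ok2.split 0 p0_4_6 (Ok2.split 0 p0_4_5 (Ok2.split 1 (Ok2.part 27 p0_4_2 p0_4_3) p0_4_4))))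
theorem o0_3 : Ok2 par f3 Box3.unit C0 :=
  (Ok2.part 6979871910282215486158382824823935589154815 (Ok2.part 36893488147419103231 p0_3_0 p0_3_1) (Ok2.split 1 p0_3_13 (Ok2.split 0 p0_3_12 (Ok2.split 1 p0_3_11 (Ok2.split 0 p0_3_10 (Ok2.part 30 p0_3_9 (Ok2.split 2 p0_3_8 (Ok2.part 1 p0_3_7 (Ok2.split 1 p0_3_6 (Ok2.split 0 p0_3_5 (Ok2.part 15 p0_3_4 (Ok2.split 2 p0_3_2 p0_3_3))))))))))))
theorem o0_2 : Ok2 par f2 Box3.unit C0 :=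
  (Ok2.part 5579950424116541105599678231518066608029695 p0_2_71 (Ok2.split 1 (Ok2.part 163521666180142559254395452653567 (Ok2.part 281474976710655 p0_2_0 p0_2_1) (Ok2.split 1 (Ok2.part 536 p0_2_13 (Ok2.split 2 (Ok2.part 31 p0_2_5 (Ok2.split 0 (Ok2.part 21 p0_2_2 p0_2_3) p0_2_4)) (Ok2.part 960 p0_2_12 (Ok2.split 0 (Ok2.part 16 p0_2_9 (Ok2.split 2 p0_2_8 (Ok2.split 0 p0_2_6 p0_2_7))) (Ok2.part 15 p0_2_10 p0_2_11))))) (Ok2.part 247 p0_2_18 (Ok2.split 0 p0_2_17 (Ok2.split 1 p0_2_16 (Ok2.part 33 p0_2_14 p0_2_15)))))) (Ok2.part 160991935718422173912840324251649 p0_2_70 (Ok2.split 0 (Ok2.part 281474976710655 p0_2_19 p0_2_20) (Ok2.split 0 (Ok2.part 281474976710655 p0_2_21 p0_2_22) (Ok2.split 1 (Ok2.part 19613612054705885961403760634 (Ok2.part 17592186044415 p0_2_23 p0_2_24) (Ok2.split 1 p0_2_28 (Ok2.part 175 p0_2_27 (Ok2.split 2 p0_2_25 p0_2_26))))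 (Ok2.part 69324648398087304160760299525 p0_2_69 (Ok2.split 0 (Ok2.part 17592186044415 p0_2_29 p0_2_30) (Ok2.split 1 (Ok2.part 83406418373699600054747139 p0_2_61 (Ok2.split 0 (Ok2.part 17179869183 p0_2_31 p0_2_32) (Ok2.split 1 (Ok2.part 590295810358705651710 (Ok2.part 17179869183 p0_2_33 p0_2_34) p0_2_35) (Ok2.part 475003659898020954115 p0_2_60 (Ok2.split 2 (Ok2.part 3458764513820540929 p0_2_46 (Ok2.split 0 (Ok2.part 536870911 p0_2_36 p0_2_37) (Ok2.split 1 (Ok2.part 536870911 p0_2_38 p0_2_39) (Ok2.split 2 (Ok2.split 0 (Ok2.part 536870911 p0_2_40 p0_2_41) (Ok2.part 536870911 p0_2_42 p0_2_43)) (Ok2.part 536870911 p0_2_44 p0_2_45))))) (Ok2.split 0 (Ok2.part 2147483647 p0_2_47 p0_2_48) (Ok2.split 1 (Ok2.part 3458764513820540928 p0_2_57 (Ok2.split 2 (Ok2.part 1073741823 p0_2_49 p0_2_50) (Ok2.split 0 (Ok2.part 1073741823 p0_2_51 p0_2_52) (Ok2.split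 1 (Ok2.part 1073741823 p0_2_53 p0_2_54) (Ok2.part 1073741823 p0_2_55 p0_2_56))))) (Ok2.part 2147483647 p0_2_58 p0_2_59)))))))) (Ok2.part 77088500762174447174025214 (Ok2.part 274877906943 p0_2_62 p0_2_63) (Ok2.split 0 p0_2_68 (Ok2.split 1 (Ok2.part 1534 p0_2_64 p0_2_65) (Ok2.part 1791 p0_2_66 p0_2_67)))))))))))))
theorem o0_1 : Ok2 par f1 Box3.unit C0 :=
  (Ok2.part 11117705492040901478275375174010731004690431 (Ok2.part 1180591620717411303423 (Ok2.part 34359738367 p0_1_2 p0_1_3) (Ok2.part 34359738367 p0_1_0 p0_1_1)) p0_1_4)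
theorem o0_0 : Ok2 par f0 Box3.unit C0 :=
  (Ok2.part 2361183241434822606847 p0_0_0 p0_0_1)

theorem pt0 : PtAll2 par C0 :=
  PtAll2.of_okD hw (OkD2.cover [f0.dom,f1.dom,f2.dom,f3.dom,f4.dom,f5.dom,f6.dom,f7.dom]
    (.split 0 (.leaf 0) (.split 1 (.split 0 (.leaf 1) (.leaf 2)) (.split 0 (.leaf 3) (.split 1 (.leaf 4) (.split 0 (.leaf 5) (.split 1 (.leaf 6) (.leaf 7)))))))
    (by decide +kernel)
    (List.forall_mem_cons.2 ⟨OkD2.of_ok o0_0, (List.forall_mem_cons.2 ⟨OkD2.of_ok o0_1, (List.forall_mem_cons.2 ⟨OkD2.of_ok o0_2, (List.forall_mem_cons.2 ⟨OkD2.of_ok o0_3, (List.forall_mem_cons.2 ⟨OkD2.of_ok o0_4, (List.forall_mem_cons.2 ⟨OkD2.of_ok o0_5, (List.forall_mem_cons.2 ⟨OkD2.of_ok o0_6, (List.forall_mem_cons.2 ⟨OkD2.of_ok o0_7, (fun _ h => nomatch h)⟩)⟩)⟩)⟩)⟩)⟩)⟩)⟩))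

end Crest.Agent.R163.R2
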