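import Crest.Agent.R163.Q3.D.R2.S0
import Crest.Agent.R163.Q3.D.R2.H

set_option autoImplicit false
set_option maxRecDepth 100000
set_option linter.all false
set_option Elab.async false

namespace Crest.Agent.R163.R2

theorem p0_0_0 : Ok2 par f0 Box3.unit (selB2 1 C0 2361183241434822606847) :=
  Ok2.run hw hf0 ⟨233,19,19,13,13⟩ 58
    (.chk false 2048)
    (by decide +kernel)

theorem p0_0_1 : Ok2 par f0 Box3.unit (selB2 0 C0 2361183241434822606847) :=
  Ok2.run hw hf0 ⟨233,19,19,13,13⟩ 58
    (.chk false 2048)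
    (by decide +kernel)

theorem p0_1_0 : Ok2 par f1 Box3.unit (selB2 1 (selB2 0 (selB2 1 C0 11117705492040901478275375174010731004690431) 1180591620717411303423) 34359738367) :=
  Ok2.run hw hf1 ⟨237,19,19,16,13⟩ 58
    (.chk false 2048)
    (by decide +kernel)

theorem p0_1_1 : Ok2 par f1 Box3.unit (selB2 0 (selB2 0 (selB2 1 C0 11117705492040901478275375174010731004690431) 1180591620717411303423) 34359738367) :=
  Ok2.run hw hf1 ⟨237,19,19,16,13⟩ 58
    (.chk false 0)
    (by decide +kernel)

theorem p0_1_2 : Ok2 par f1 Box3.unit (selB2 1 (selB2 1 (selB2 1 C0 11117705492040901478275375174010731004690431) 1180591620717411303423) 34359738367) :=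
  Ok2.run hw hf1 ⟨237,19,19,16,13⟩ 58
    (.chk false 2048)
    (by decide +kernel)

theorem p0_1_3 : Ok2 par f1 Box3.unit (selB2 0 (selB2 1 (selB2 1 C0 11117705492040901478275375174010731004690431) 1180591620717411303423) 34359738367) :=
  Ok2.run hw hf1 ⟨237,19,19,16,13⟩ 58
    (.chk false 2048)
    (by decide +kernel)

theorem p0_1_4 : Ok2 par f1 Box3.unit (selB2 0 C0 11117705492040901478275375174010731004690431) :=
  Ok2.run hw hf1 ⟨309,19,19,16,13⟩ 58
    (.split 0 (.chk false 0) (.part 2 (.chk false 0) (.split 2 (.split 0 (.chk false 0) (.chk false 0)) (.chk false 0))))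
    (by decide +kernel)

theorem p0_2_0 : Ok2 par f2 (Box3.unit.l 1) (selB2 1 (selB2 1 (selB2 0 C0 5579950424116541105599678231518066608029695) 163521666180142559254395452653567) 281474976710655) :=
  Ok2.run hw hf2 ⟨263,19,19,13,13⟩ 58
    (.chk false 2048)
    (by decide +kernel)

theorem p0_2_1 : Ok2 par f2 (Box3.unit.l 1) (selB2 0 (selB2 1 (selB2 0 C0 5579950424116541105599678231518066608029695) 163521666180142559254395452653567) 281474976710655) :=
  Ok2.run hw hf2 ⟨263,19,19,13,13⟩ 58
    (.chk false 2048)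
    (by decide +kernel)

theorem p0_2_2 : Ok2 par f2 ((((Box3.unit.l 1).l 1).l 2).l 0) (selB2 1 (selB2 0 (selB2 0 (selB2 0 (selB2 0 C0 5579950424116541105599678231518066608029695) 163521666180142559254395452653567) 536) 31) 21) :=
  Ok2.run hw hf2 ⟨331,19,19,13,13⟩ 58
    (.chk false 0)
    (by decide +kernel)

theorem p0_2_3 : Ok2 par f2 ((((Box3.unit.l 1).l 1).l 2).l 0) (selB2 0 (selB2 0 (selB2 0 (selB2 0 (selB2 0 C0 5579950424116541105599678231518066608029695) 163521666180142559254395452653567) 536) 31) 21) :=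
  Ok2.run hw hf2 ⟨431,19,19,13,13⟩ 58
    (.split 2 (.split 2 (.split 0 (.chk false 0) (.part 1 (.chk false 0) (.split 1 (.chk false 0) (.split 2 (.split 2 (.split 1 (.chk false 0) (.chk false 0)) (.chk false 0)) (.chk false 0))))) (.chk false 0)) (.chk false 0))
    (by decide +kernel)

theorem p0_2_4 : Ok2 par f2 ((((Box3.unit.l 1).l 1).l 2).r 0) (selB2 0 (selB2 0 (selB2 0 (selB2 0 C0 5579950424116541105599678231518066608029695) 163521666180142559254395452653567) 536) 31) :=
  Ok2.run hw hf2 ⟨331,19,19,13,13⟩ 58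
    (.chk false 0)
    (by decide +kernel)

theorem p0_2_5 : Ok2 par f2 (((Box3.unit.l 1).l 1).l 2) (selB2 1 (selB2 0 (selB2 0 (selB2 0 C0 5579950424116541105599678231518066608029695) 163521666180142559254395452653567) 536) 31) :=
  Ok2.run hw hf2 ⟨303,19,19,13,13⟩ 58
    (.chk false 0)
    (by decide +kernel)

theorem p0_2_6 : Ok2 par f2 ((((((Box3.unit.l 1).l 1).r 2).l 0).r 2).l 0) (selB2 0 (selB2 0 (selB2 0 (selB2 0 (selB2 0 C0 5579950424116541105599678231518066608029695) 163521666180142559254395452653567) 536) 960) 16) :=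
  Ok2.run hw hf2 ⟨420,19,19,13,13⟩ 58
    (.part 28 (.chk false 0) (.split 1 (.split 2 (.chk false 0) (.split 0 (.chk false 0) (.chk false 0))) (.chk false 0)))
    (by decide +kernel)

theorem p0_2_7 : Ok2 par f2 ((((((Box3.unit.l 1).l 1).r 2).l 0).r 2).r 0) (selB2 0 (selB2 0 (selB2 0 (selB2 0 (selB2 0 C0 5579950424116541105599678231518066608029695) 163521666180142559254395452653567) 536) 960) 16) :=
  Ok2.run hw hf2 ⟨412,19,19,13,13⟩ 58
    (.part 7 (.chk false 0) (.split 1 (.part 2 (.chk false 0) (.split 0 (.chk false 0) (.split 1 (.chk false 0) (.chk false 0)))) (.chk false 0)))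
    (by decide +kernel)

theorem p0_2_8 : Ok2 par f2 (((((Box3.unit.l 1).l 1).r 2).l 0).l 2) (selB2 0 (selB2 0 (selB2 0 (selB2 0 (selB2 0 C0 5579950424116541105599678231518066608029695) 163521666180142559254395452653567) 536) 960) 16) :=
  Ok2.run hw hf2 ⟨341,19,19,13,13⟩ 58
    (.chk false 0)
    (by decide +kernel)

theorem p0_2_9 : Ok2 par f2 ((((Box3.unit.l 1).l 1).r 2).l 0) (selB2 1 (selB2 0 (selB2 0 (selB2 0 (selB2 0 C0 5579950424116541105599678231518066608029695) 163521666180142559254395452653567) 536) 960) 16) :=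
  Ok2.run hw hf2 ⟨331,19,19,13,13⟩ 58
    (.chk false 0)
    (by decide +kernel)

theorem p0_2_10 : Ok2 par f2 ((((Box3.unit.l 1).l 1).r 2).r 0) (selB2 1 (selB2 0 (selB2 0 (selB2 0 (selB2 0 C0 5579950424116541105599678231518066608029695) 163521666180142559254395452653567) 536) 960) 15) :=
  Ok2.run hw hf2 ⟨331,19,19,13,13⟩ 58
    (.chk false 0)
    (by decide +kernel)

theorem p0_2_11 : Ok2 par f2 ((((Box3.unit.l 1).l 1).r 2).r 0) (selB2 0 (selB2 0 (selB2 0 (selB2 0 (selB2 0 C0 5579950424116541105599678231518066608029695) 163521666180142559254395452653567) 536) 960) 15) :=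
  Ok2.run hw hf2 ⟨431,19,19,13,13⟩ 58
    (.split 1 (.split 0 (.split 1 (.part 1 (.chk false 0) (.split 0 (.split 2 (.chk false 0) (.split 1 (.chk false 0) (.chk false 0))) (.chk false 0))) (.chk false 0)) (.chk false 0)) (.chk false 0))
    (by decide +kernel)

theorem p0_2_12 : Ok2 par f2 (((Box3.unit.l 1).l 1).r 2) (selB2 1 (selB2 0 (selB2 0 (selB2 0 C0 5579950424116541105599678231518066608029695) 163521666180142559254395452653567) 536) 960) :=
  Ok2.run hw hf2 ⟨303,19,19,13,13⟩ 58
    (.chk false 0)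
    (by decide +kernel)

theorem p0_2_13 : Ok2 par f2 ((Box3.unit.l 1).l 1) (selB2 1 (selB2 0 (selB2 0 C0 5579950424116541105599678231518066608029695) 163521666180142559254395452653567) 536) :=
  Ok2.run hw hf2 ⟨285,19,19,13,13⟩ 58
    (.chk false 0)
    (by decide +kernel)

theorem p0_2_14 : Ok2 par f2 ((((Box3.unit.l 1).r 1).r 0).r 1) (selB2 1 (selB2 0 (selB2 0 (selB2 0 C0 5579950424116541105599678231518066608029695) 163521666180142559254395452653567) 247) 33) :=
  Ok2.run hw hf2 ⟨320,19,19,13,13⟩ 58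
    (.chk false 0)
    (by decide +kernel)

theorem p0_2_15 : Ok2 par f2 ((((Box3.unit.l 1).r 1).r 0).r 1) (selB2 0 (selB2 0 (selB2 0 (selB2 0 C0 5579950424116541105599678231518066608029695) 163521666180142559254395452653567) 247) 33) :=
  Ok2.run hw hf2 ⟨418,19,19,13,13⟩ 58
    (.split 0 (.chk false 0) (.split 1 (.part 9 (.chk false 0) (.split 0 (.chk false 0) (.split 2 (.chk false 0) (.part 1 (.chk false 0) (.split 1 (.chk false 0) (.chk false 0)))))) (.chk false 0)))
    (by decide +kernel)

theorem p0_2_16 : Ok2 par f2 ((((Box3.unit.l 1).r 1).r 0).l 1) (selB2 0 (selB2 0 (selB2 0 C0 5579950424116541105599678231518066608029695) 163521666180142559254395452653567) 247) :=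
  Ok2.run hw hf2 ⟨389,19,19,13,13⟩ 58
    (.part 31 (.chk false 0) (.split 2 (.split 2 (.split 0 (.split 1 (.chk false 0) (.chk false 0)) (.chk false 0)) (.chk false 0)) (.chk false 0)))
    (by decide +kernel)

theorem p0_2_17 : Ok2 par f2 (((Box3.unit.l 1).r 1).l 0) (selB2 0 (selB2 0 (selB2 0 C0 5579950424116541105599678231518066608029695) 163521666180142559254395452653567) 247) :=
  Ok2.run hw hf2 ⟨305,19,19,13,13⟩ 58
    (.chk false 0)
    (by decide +kernel)

theorem p0_2_18 : Ok2 par f2 ((Box3.unit.l 1).r 1) (selB2 1 (selB2 0 (selB2 0 C0 5579950424116541105599678231518066608029695) 163521666180142559254395452653567) 247) :=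
  Ok2.run hw hf2 ⟨277,19,19,13,13⟩ 58
    (.chk false 0)
    (by decide +kernel)

theorem p0_2_19 : Ok2 par f2 ((Box3.unit.r 1).l 0) (selB2 1 (selB2 0 (selB2 0 C0 5579950424116541105599678231518066608029695) 160991935718422173912840324251649) 281474976710655) :=
  Ok2.run hw hf2 ⟨292,19,19,13,13⟩ 58
    (.chk false 2048)
    (by decide +kernel)

theorem p0_2_20 : Ok2 par f2 ((Box3.unit.r 1).l 0) (selB2 0 (selB2 0 (selB2 0 C0 5579950424116541105599678231518066608029695) 160991935718422173912840324251649) 281474976710655) :=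
  Ok2.run hw hf2 ⟨292,19,19,13,13⟩ 58
    (.chk false 2048)
    (by decide +kernel)

theorem p0_2_21 : Ok2 par f2 (((Box3.unit.r 1).r 0).l 0) (selB2 1 (selB2 0 (selB2 0 C0 5579950424116541105599678231518066608029695) 160991935718422173912840324251649) 281474976710655) :=
  Ok2.run hw hf2 ⟨305,19,19,13,13⟩ 58
    (.chk false 2048)
    (by decide +kernel)

theorem p0_2_22 : Ok2 par f2 (((Box3.unit.r 1).r 0).l 0) (selB2 0 (selB2 0 (selB2 0 C0 5579950424116541105599678231518066608029695) 160991935718422173912840324251649) 281474976710655) :=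
  Ok2.run hw hf2 ⟨305,19,19,13,13⟩ 58
    (.chk false 2048)
    (by decide +kernel)

theorem p0_2_23 : Ok2 par f2 ((((Box3.unit.r 1).r 0).r 0).l 1) (selB2 1 (selB2 1 (selB2 0 (selB2 0 C0 5579950424116541105599678231518066608029695) 160991935718422173912840324251649) 19613612054705885961403760634) 17592186044415) :=
  Ok2.run hw hf2 ⟨327,19,19,13,13⟩ 58
    (.chk false 2048)
    (by decide +kernel)

theorem p0_2_24 : Ok2 par f2 ((((Box3.unit.r 1).r 0).r 0).l 1) (selB2 0 (selB2 1 (selB2 0 (selB2 0 C0 5579950424116541105599678231518066608029695) 160991935718422173912840324251649) 19613612054705885961403760634) 17592186044415) :=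
  Ok2.run hw hf2 ⟨327,19,19,13,13⟩ 58
    (.chk false 2048)
    (by decide +kernel)


end Crest.Agent.R163.R2
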